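import Vale.Agent.P179.H671.LibA
import Vale.Agent.P179.H999.Wts
import Vale.Agent.P179.Sgn.Final

/-!
# Module LIB of the signature theorem

The principal block with abelian Sylow subgroup `P` and free action of `N_G(P)/C_G(P)`, cyclic of
order `e`, on `P - 1`: at most `e` simple modules, exactly `e` weights.
-/

namespace Vale.P179.H671

open P179H524 P179C P179A Finset P179P P179Y Subgroup

/-- **module LIB** -/
theorem lib : Vale.P179.Sgn.LIB := by
  intro p _ k _ _ _ red G _ _ P e h hp2 B hB hpB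
  obtain ⟨h1, h2⟩ := Vale.P179.H671.principal_upper red hB hpB P h.comm h.free hp2
  rw [h.idx] at h1 h2
  refine ⟨h1, le_antisymm h2 ?_⟩
  obtain ⟨t, ht, hgen⟩ := h.gen
  have key : ∀ n : normalizer ((P : Subgroup G) : Set G), ∃ i : ℕ,
      (QuotientGroup.mk n : (normalizer ((P : Subgroup G) : Set G)) ⧸ CN (P : Subgroup G)) =
        ((QuotientGroup.mk ⟨t, ht⟩) ^ i)⁻¹ := by
    intro n
    obtain ⟨i, hi⟩ := hgen n n.2
    refine ⟨i, ?_⟩
    have h3 : (QuotientGroup.mk ((⟨t, ht⟩ : normalizer ((P : Subgroup G) : Set G)) ^ i * n) :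
        (normalizer ((P : Subgroup G) : Set G)) ⧸ CN (P : Subgroup G)) = 1 :=
      (QuotientGroup.eq_one_iff _).2 (mem_subgroupOf.2 hi)
    rw [QuotientGroup.mk_mul, QuotientGroup.mk_pow] at h3
    exact eq_inv_of_mul_eq_one_right h3
  have hK : ∀ x y : (normalizer ((P : Subgroup G) : Set G)) ⧸ CN (P : Subgroup G),
      x * y = y * x := by
    intro x y
    obtain ⟨n, rfl⟩ := QuotientGroup.mk_surjective x
    obtain ⟨m, rfl⟩ := QuotientGroup.mk_surjective y
    obtain ⟨i, hi⟩ := key n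
    obtain ⟨j, hj⟩ := key m
    rw [hi, hj, ← mul_inv_rev, ← mul_inv_rev, ← pow_add, ← pow_add, add_comm]
  have h3 := Vale.P179.H999.card_irr_le_numWeightsIn red hB hpB P h.comm hK
  rw [Vale.P179.H999.card_irr_of_comm _ hK] at h3
  have h4 : Nat.card ((normalizer ((P : Subgroup G) : Set G)) ⧸ CN (P : Subgroup G)) = e := h.idx
  rwa [h4] at h3

end Vale.P179.H671
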