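import Vale.Agent.P179.H905.I23
import Vale.Agent.P179.H905.FinalP

/-!
# SIGNATURE project (P179), module LIB, part (a)

The Sylow subgroups are the defect groups of the principal block, and `l(B₀)`, `|W_p(B₀)|` are at
most `|N_G(P) : C_G(P)|` if `N_G(P)/C_G(P)` acts freely on `P - 1`, `P` abelian, `p` odd.
-/

namespace Vale.P179.H671

open Subgroup P179A P179C P179P

open P179X (IsPrincipal autOrd)

section

variable {k : Type*} [Field k] {G : Type*} [Group G]

theorem aug_conjBy (g : G) (a : MonoidAlgebra k G) :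
    augHom k G (P179C.conjBy g a) = augHom k G a := by
  have h : ∀ x : G, augHom k G (MonoidAlgebra.single x 1) = 1 := by
    intro x
    simp [augHom]
  unfold P179C.conjBy
  rw [map_mul, map_mul, h, h, one_mul, mul_one]

theorem aug_relTrace [Finite G] {B : MonoidAlgebra k G} {D : Subgroup G} (h : IsRelTrace B D) :
    ∃ c : k, augHom k G B = (D.index : k) * c := by
  obtain ⟨a, -, rfl⟩ := h
  have := Fintype.ofFinite (G ⧸ D)
  refine ⟨augHom k G a, ?_⟩
  rw [finsum_eq_sum_of_fintype, map_sum]
  simp only [aug_conjBy]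
  rw [Finset.sum_const, Finset.card_univ, nsmul_eq_mul, ← Nat.card_eq_fintype_card]
  rfl

end

section

variable {p : ℕ} {k : Type*} [Field k] [CharP k p] {G : Type} [Group G] [Finite G]

theorem not_dvd_index {B : MonoidAlgebra k G} (hp : IsPrincipal B) {D : Subgroup G}
    (h : IsRelTrace B D) : ¬ p ∣ D.index := by
  intro hd
  obtain ⟨c, hc⟩ := aug_relTrace h
  rw [augHom_apply, (CharP.cast_eq_zero_iff k p _).2 hd, zero_mul] at hc
  unfold P179X.IsPrincipal at hp
  rw [hp] at hc
  exact one_ne_zero hc

/-- the Sylow subgroups are defect groups of the principal block -/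
theorem isDefectGroup_sylow [Fact p.Prime] {B : MonoidAlgebra k G} (hB : IsBlock B) (hpr : IsPrincipal B)
    (P : Sylow p G) : IsDefectGroup B (P : Subgroup G) := by
  refine ⟨isRelTrace_sylow hB P, fun D hD hle => ?_⟩
  have h1 := not_dvd_index (p := p) hpr hD
  -- `[P : D]` divides `[G : D]` and is a power of `p`
  have h2 : D.relIndex (P : Subgroup G) ∣ D.index := relIndex_dvd_index_of_le hle
  have h3 : ∃ n, D.relIndex (P : Subgroup G) = p ^ n := by
    have := P.2
    exact (IsPGroup.index this (D.subgroupOf (P : Subgroup G)))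
  obtain ⟨n, hn⟩ := h3
  rw [hn] at h2
  have h4 : n = 0 := by
    by_contra h0
    exact h1 ((dvd_pow_self p h0).trans h2)
  rw [h4, pow_zero] at hn
  exact relIndex_eq_one.1 hn

end

section

variable {p : ℕ} [hp : Fact p.Prime] {k : Type*} [Field k] [IsAlgClosed k] [CharP k p]
  (red : integralClosure ℤ ℂ →+* k) {G : Type} [Group G] [Fintype G]

/-- the upper bounds for the principal block -/
theorem principal_upper {B : MonoidAlgebra k G} (hB : IsBlock B) (hpr : IsPrincipal B)
    (P : Sylow p G) (hab : ∀ x ∈ P, ∀ y ∈ P, x * y = y * x)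
    (hfree : ∀ n ∈ normalizer ((P : Subgroup G) : Set G), ∀ x ∈ P, x ≠ 1 → n * x = x * n →
      n ∈ centralizer ((P : Subgroup G) : Set G)) (hp2 : p ≠ 2) :
    numSimpleIn B ≤ autOrd (P : Subgroup G) ∧
      numWeightsIn p red B ≤ autOrd (P : Subgroup G) := by
  have hD : IsDefectGroup B (P : Subgroup G) := isDefectGroup_sylow hB hpr P
  obtain ⟨b, hb, hbB⟩ := P179Y.exists_subblock (p := p) hB hD
  have h := P179I.bounds_free (p := p) red hB hD hab hb hbB hp2 (fun u hu hu1 => ⟨hu,
    fun n hn hnu => hfree n hn.1 u hu hu1 (by rw [← mul_inv_eq_iff_eq_mul]; exact hnu)⟩)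
  have he : P179B.inertialIndex (P : Subgroup G) b ≤ autOrd (P : Subgroup G) := by
    unfold P179B.inertialIndex P179X.autOrd
    exact relIndex_le_of_le_right (fun n hn => hn.1) (Subgroup.index_ne_zero_of_finite (H :=
      (centralizer ((P : Subgroup G) : Set G)).subgroupOf (normalizer ((P : Subgroup G) : Set G))))
  exact ⟨h.1.trans he, h.2.trans he⟩

end

end Vale.P179.H671
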