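import Vale.Agent.P179.H524.Wr1
import Vale.Agent.P179.H526.Z15

/-!
# Change of the field (P179, universe lift), part 1: extension of scalars of group algebras
-/

namespace Vale.P179.H671

open P179H524 Subgroup

universe u v

theorem eq_of_coeff {R G : Type*} [Semiring R] {x y : MonoidAlgebra R G}
    (h : ∀ g, x.coeff g = y.coeff g) : x = y := by
  apply MonoidAlgebra.ext
  exact Finsupp.ext h

theorem coeff_conjBy' {k G : Type*} [Field k] [Group G] (g : G) (x : MonoidAlgebra k G) (h : G) :
    (P179C.conjBy g x).coeff h = x.coeff (g⁻¹ * h * g) := by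
  unfold P179C.conjBy
  rw [MonoidAlgebra.coeff_mul_single_apply, MonoidAlgebra.coeff_single_mul_apply, inv_inv, mul_one,
    one_mul, mul_assoc]

theorem exists_retraction {F : Type v} [Field F] {k : Type u} [Field k] (i : F →+* k) :
    ∃ r : k →+ F, ∀ x, r (i x) = x := by
  let _ := i.toAlgebra
  obtain ⟨r, hr⟩ := LinearMap.exists_leftInverse_of_injective (Algebra.linearMap F k)
    (LinearMap.ker_eq_bot.2 i.injective)
  exact ⟨r.toAddMonoidHom, fun x => LinearMap.congr_fun hr x⟩

section Ext

variable {F : Type v} [Field F] {k : Type u} [Field k] (i : F →+* k) {G : Type*} [Group G]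

/-- extension of scalars `FG → kG` -/
noncomputable def ext : MonoidAlgebra F G →+* MonoidAlgebra k G :=
  MonoidAlgebra.mapRingHom G i

theorem coeff_ext (x : MonoidAlgebra F G) (g : G) : (ext i x).coeff g = i (x.coeff g) :=
  MonoidAlgebra.coeff_mapRingHom i x g

theorem ext_inj : Function.Injective (ext i (G := G)) := by
  intro x y h
  refine eq_of_coeff fun g => i.injective ?_
  rw [← coeff_ext, ← coeff_ext, h]

theorem ext_single (g : G) (c : F) : ext i (MonoidAlgebra.single g c) =
    MonoidAlgebra.single g (i c) := by
  classical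
  refine eq_of_coeff fun h => ?_
  rw [coeff_ext, MonoidAlgebra.coeff_single, MonoidAlgebra.coeff_single, Finsupp.single_apply,
    Finsupp.single_apply]
  split_ifs
  · rfl
  · exact map_zero i

theorem ext_smul (c : F) (x : MonoidAlgebra F G) : ext i (c • x) = i c • ext i x := by
  refine eq_of_coeff fun h => ?_
  rw [coeff_ext, MonoidAlgebra.coeff_smul, MonoidAlgebra.coeff_smul, Finsupp.smul_apply,
    Finsupp.smul_apply, coeff_ext, smul_eq_mul, smul_eq_mul, map_mul]

theorem ext_mem_center_iff {z : MonoidAlgebra F G} :
    ext i z ∈ Subalgebra.center k (MonoidAlgebra k G) ↔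
      z ∈ Subalgebra.center F (MonoidAlgebra F G) := by
  rw [P179C.mem_center_iff, P179C.mem_center_iff]
  constructor
  · intro h g x
    have := h g x
    simp only [coeff_ext] at this
    exact i.injective this
  · intro h g x
    simp only [coeff_ext]
    exact congrArg i (h g x)

theorem ext_conjBy (g : G) (x : MonoidAlgebra F G) :
    ext i (P179C.conjBy g x) = P179C.conjBy g (ext i x) := by
  unfold P179C.conjBy
  rw [map_mul, map_mul, ext_single, ext_single, map_one]

theorem ext_trunc [Finite G] (H : Subgroup G) (z : MonoidAlgebra F G) :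
    ext i (P179C.trunc H z) = P179C.trunc H (ext i z) := by
  refine eq_of_coeff fun g => ?_
  rw [coeff_ext, P179C.coeff_trunc, P179C.coeff_trunc, coeff_ext]

theorem ext_classSum [Finite G] (g : G) :
    ext i (P179C.classSum F g) = P179C.classSum k g := by
  refine eq_of_coeff fun x => ?_
  rw [coeff_ext, P179C.coeff_classSum, P179C.coeff_classSum, map_intCast]

/-! ## relative traces -/

theorem isRelTrace_ext [Finite G] (z : MonoidAlgebra F G) (D : Subgroup G) :
    P179C.IsRelTrace (ext i z) D ↔ P179C.IsRelTrace z D := by
  constructor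
  · rintro ⟨a, ha, hz⟩
    obtain ⟨r, hr⟩ := exists_retraction i
    have hc : ∀ (g : G) (x : MonoidAlgebra k G), MonoidAlgebra.map r (P179C.conjBy g x) =
        P179C.conjBy g (MonoidAlgebra.map r x) := by
      intro g x
      refine eq_of_coeff fun h => ?_
      rw [coeff_conjBy', MonoidAlgebra.coeff_map, MonoidAlgebra.coeff_map, Finsupp.mapRange_apply,
        Finsupp.mapRange_apply, coeff_conjBy']
    refine ⟨MonoidAlgebra.map r a, fun d hd => ?_, ?_⟩
    · rw [← hc, ha d hd]
    · have h1 : MonoidAlgebra.map r (ext i z) = z := by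
        refine eq_of_coeff fun h => ?_
        rw [MonoidAlgebra.coeff_map, Finsupp.mapRange_apply, coeff_ext, hr]
      have := Fintype.ofFinite (G ⧸ D)
      rw [← h1, hz, finsum_eq_sum_of_fintype, finsum_eq_sum_of_fintype, MonoidAlgebra.map_sum]
      exact Finset.sum_congr rfl fun c _ => hc _ _
  · rintro ⟨a, ha, hz⟩
    refine ⟨ext i a, fun d hd => ?_, ?_⟩
    · rw [← ext_conjBy, ha d hd]
    · have := Fintype.ofFinite (G ⧸ D)
      rw [hz, finsum_eq_sum_of_fintype, finsum_eq_sum_of_fintype, map_sum]
      exact Finset.sum_congr rfl fun c _ => ext_conjBy i _ _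

theorem isDefectGroup_ext [Finite G] (z : MonoidAlgebra F G) (D : Subgroup G) :
    P179C.IsDefectGroup (ext i z) D ↔ P179C.IsDefectGroup z D := by
  unfold P179C.IsDefectGroup
  have : P179C.IsRelTrace (ext i z) = P179C.IsRelTrace z :=
    funext fun D => propext (isRelTrace_ext i z D)
  rw [this]

/-! ## the inertial group -/

theorem inertialGroup_ext (D : Subgroup G) (b : MonoidAlgebra F (centralizer (D : Set G))) :
    P179B.inertialGroup D (ext i b) = P179B.inertialGroup D b := by
  ext n
  change (_ ∧ _) ↔ (_ ∧ _)
  refine and_congr_right fun _ => ?_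
  refine forall_congr' fun x => forall_congr' fun y => ?_
  rw [coeff_ext, coeff_ext, i.injective.eq_iff]

theorem inertialIndex_ext (D : Subgroup G) (b : MonoidAlgebra F (centralizer (D : Set G))) :
    P179B.inertialIndex D (ext i b) = P179B.inertialIndex D b := by
  unfold P179B.inertialIndex
  rw [inertialGroup_ext]

theorem regularElements_ext (D : Subgroup G) (b : MonoidAlgebra F (centralizer (D : Set G))) :
    P179B.regularElements D (ext i b) = P179B.regularElements D b := by
  unfold P179B.regularElements
  rw [inertialGroup_ext]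

end Ext

end Vale.P179.H671
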