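import Vale.Agent.P179.H671.Univ1

/-!
# Change of the field (P179, universe lift), part 2: blocks and central characters
-/

namespace Vale.P179.H671

open P179H524 Subgroup

universe u v

theorem exists_inIdem {k : Type u} [Field k] [IsAlgClosed k] {G : Type} [Group G] [Finite G]
    (B : MonoidAlgebra k G) (hB1 : B ∈ Subalgebra.center k (MonoidAlgebra k G))
    (hB2 : B * B = B) (hB3 : B ≠ 0) : ∃ a : IrrRep k G, P179C.InBlock a B := by
  obtain ⟨r, d, hd, f, hf, hker⟩ := P179H524.exists_wedderburn k G
  obtain ⟨l, hl⟩ := P179C.C2.exists_scalar f hf B hB1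
  have h1 : ∃ i, l i ≠ 0 := by
    by_contra hc
    push Not at hc
    have h2 : f B = 0 := by
      funext i
      rw [hl, hc, map_zero]
      rfl
    have h3 := hker B h2
    have h4 : IsNilpotent B := P179H524.isNilpotent_of_mem_jacobson B h3
    obtain ⟨n, hn⟩ := h4
    have h5 : ∀ m : ℕ, B ^ (m + 1) = B := by
      intro m
      induction m with
      | zero => simp
      | succ m ih => rw [pow_succ, ih, hB2]
    have h6 : B = 0 := by
      rw [← h5 n, pow_succ, hn, zero_mul]
    exact hB3 h6
  obtain ⟨i, hi⟩ := h1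
  have h2 := (P179C.C2.scalar_idem f B hB2 l hl i).resolve_left hi
  exact ⟨_, (P179C.C2.inBlock_iff f hf B l hl i).mpr h2⟩

/-- a nonzero central idempotent is seen by a character of the centre -/
theorem exists_hom_one {k : Type u} [Field k] [IsAlgClosed k] {G : Type} [Group G] [Finite G]
    (e : Subalgebra.center k (MonoidAlgebra k G)) (he : e * e = e) (h0 : e ≠ 0) :
    ∃ l : Subalgebra.center k (MonoidAlgebra k G) →ₐ[k] k, l e = 1 := by
  obtain ⟨a, ha⟩ := exists_inIdem (e : MonoidAlgebra k G) e.2 (congrArg Subtype.val he)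
    (fun h => h0 (Subtype.ext h))
  obtain ⟨l, hl⟩ := P179C.exists_chi a
  refine ⟨l, ?_⟩
  have := P179C.nontrivial_irrRep a
  have hinj : Function.Injective (algebraMap k (Module.End k (Fin a.1.1 → k))) :=
    FaithfulSMul.algebraMap_injective _ _
  apply hinj
  rw [Algebra.algebraMap_eq_smul_one, ← hl, map_one]
  exact ha

theorem prim_of_hom {k Z : Type*} [Field k] [CommRing Z] [Algebra k Z] {B : Z} (hB2 : B * B = B)
    (hB0 : B ≠ 0) (hex : ∀ e : Z, e * e = e → e ≠ 0 → ∃ l : Z →ₐ[k] k, l e = 1)
    (hun : ∀ l l' : Z →ₐ[k] k, l B = 1 → l' B = 1 → l = l') : P179C.Prim B := by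
  refine ⟨hB2, hB0, ?_⟩
  intro e he heB
  by_contra hc
  push Not at hc
  obtain ⟨l, hl⟩ := hex e he hc.1
  have he' : (B - e) * (B - e) = B - e := by
    have : (B - e) * (B - e) = B * B - e * B - e * B + e * e := by ring
    rw [this, hB2, heB, he]; ring
  obtain ⟨l', hl'⟩ := hex _ he' (fun h => hc.2 (sub_eq_zero.1 h).symm)
  have h1 : l B = 1 := by
    have := congrArg l heB
    rwa [map_mul, hl, one_mul] at this
  have h2 : l' B = 1 := by
    have h3 : (B - e) * B = B - e := by rw [sub_mul, hB2, heB]
    have := congrArg l' h3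
    rwa [map_mul, hl', one_mul] at this
  have h3 : l = l' := hun l l' h1 h2
  rw [map_sub, h2, ← h3, hl, sub_self] at hl'
  exact zero_ne_one hl'

section Ext

variable {F : Type v} [Field F] {k : Type u} [Field k] (i : F →+* k) {G : Type} [Group G]

/-- extension of scalars on the centre -/
noncomputable def extZ : Subalgebra.center F (MonoidAlgebra F G) →+*
    Subalgebra.center k (MonoidAlgebra k G) where
  toFun z := ⟨ext i z.1, (ext_mem_center_iff i).2 z.2⟩
  map_one' := Subtype.ext (map_one (ext i))
  map_mul' _ _ := Subtype.ext (map_mul (ext i) _ _)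
  map_zero' := Subtype.ext (map_zero (ext i))
  map_add' _ _ := Subtype.ext (map_add (ext i) _ _)

theorem extZ_val (z : Subalgebra.center F (MonoidAlgebra F G)) : (extZ i z).1 = ext i z.1 := rfl

theorem mem_range_of_integral [IsAlgClosed F] {R : Type*} [CommRing R] [Algebra F R]
    [Module.Finite F R] (L : R →+* k) (hL : ∀ c : F, L (algebraMap F R c) = i c) (z : R) :
    ∃ c : F, i c = L z := by
  let _ := i.toAlgebra
  let L' : R →ₐ[F] k := { L with commutes' := hL }
  have h1 : IsIntegral F (L' z) := (Algebra.IsIntegral.isIntegral z).map L'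
  have h2 := IsAlgClosed.degree_eq_one_of_irreducible F (minpoly.irreducible h1)
  obtain ⟨c, hc⟩ := minpoly.mem_range_of_degree_eq_one F _ h2
  exact ⟨c, hc⟩

/-- characters of the centre of `kG` are defined over `F` -/
theorem exists_descent [IsAlgClosed F] [Finite G]
    (l : Subalgebra.center k (MonoidAlgebra k G) →ₐ[k] k) :
    ∃ l0 : Subalgebra.center F (MonoidAlgebra F G) →ₐ[F] F, ∀ z, i (l0 z) = l (extZ i z) := by
  have hL : ∀ c : F, (l : _ →+* k).comp (extZ i (G := G)) (algebraMap F _ c) = i c := by
    intro c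
    have h1 : extZ i (algebraMap F (Subalgebra.center F (MonoidAlgebra F G)) c) =
        algebraMap k _ (i c) := by
      apply Subtype.ext
      rw [extZ_val]
      change ext i (algebraMap F (MonoidAlgebra F G) c) = algebraMap k (MonoidAlgebra k G) (i c)
      rw [Algebra.algebraMap_eq_smul_one, Algebra.algebraMap_eq_smul_one, ext_smul, map_one]
    rw [RingHom.comp_apply, h1]
    exact AlgHom.commutes l (i c)
  have h := fun z => mem_range_of_integral i ((l : _ →+* k).comp (extZ i (G := G))) hL z
  choose c hc using h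
  refine ⟨
    { toFun := c
      map_one' := ?_
      map_mul' := ?_
      map_zero' := ?_
      map_add' := ?_
      commutes' := ?_ }, hc⟩
  · apply i.injective
    rw [hc, map_one, map_one]
  · intro x y
    apply i.injective
    rw [hc, map_mul, map_mul, hc, hc]
  · apply i.injective
    rw [hc, map_zero, map_zero]
  · intro x y
    apply i.injective
    rw [hc, map_add, map_add, hc, hc]
  · intro r
    apply i.injective
    rw [hc, hL]
    rfl

theorem hom_ext_of [Finite G] {l l' : Subalgebra.center k (MonoidAlgebra k G) →ₐ[k] k}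
    (h : ∀ z, l (extZ i z) = l' (extZ i z)) : l = l' := by
  apply AlgHom.ext
  intro z
  have := Fintype.ofFinite (ConjClasses G)
  have h1 := P179C.eq_sum_classSum z.1 z.2
  have h2 : z = ∑ C : ConjClasses G, z.1.coeff C.out •
      extZ i ⟨P179C.classSum F C.out, P179C.classSum_mem_center C.out⟩ := by
    apply Subtype.ext
    conv_lhs => rw [h1]
    rw [AddSubmonoidClass.coe_finsetSum]
    refine Finset.sum_congr rfl fun C _ => ?_
    rw [Subalgebra.coe_smul, extZ_val, ext_classSum]
  rw [h2, map_sum, map_sum]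
  refine Finset.sum_congr rfl fun C _ => ?_
  rw [map_smul, map_smul, h]

variable [IsAlgClosed F] [IsAlgClosed k] [Finite G]

omit [IsAlgClosed k] in
theorem hom_unique {B : Subalgebra.center F (MonoidAlgebra F G)} (hB : P179C.Prim B)
    (l l' : Subalgebra.center k (MonoidAlgebra k G) →ₐ[k] k) (hl : l (extZ i B) = 1)
    (hl' : l' (extZ i B) = 1) : l = l' := by
  obtain ⟨l0, h0⟩ := exists_descent i l
  obtain ⟨l0', h0'⟩ := exists_descent i l'
  have h1 : l0 = l0' := by
    refine P179C.eq_of_prim hB l0 l0' ?_ ?_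
    · apply i.injective
      rw [h0, hl, map_one]
    · apply i.injective
      rw [h0', hl', map_one]
  refine hom_ext_of i fun z => ?_
  rw [← h0, ← h0', h1]

omit [IsAlgClosed F] [IsAlgClosed k] [Finite G] in
theorem extZ_inj : Function.Injective (extZ i (G := G)) := by
  intro x y h
  exact Subtype.ext (ext_inj i (congrArg Subtype.val h))

theorem prim_extZ {B : Subalgebra.center F (MonoidAlgebra F G)} (hB : P179C.Prim B) :
    P179C.Prim (extZ i B) :=
  prim_of_hom (by rw [← map_mul, hB.1])
    (fun h => hB.2.1 (extZ_inj i (by rw [h, map_zero])))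
    (fun e he h0 => exists_hom_one e he h0) (fun l l' h h' => hom_unique i hB l l' h h')

/-- **Blocks stay blocks.** -/
theorem isBlock_ext (B : MonoidAlgebra F G) : P179C.IsBlock (ext i B) ↔ P179C.IsBlock B := by
  constructor
  · intro h
    have hc := (ext_mem_center_iff i).1 h.1
    rw [P179C.isBlock_iff_prim ⟨B, hc⟩]
    refine ⟨?_, ?_, ?_⟩
    · apply extZ_inj i
      apply Subtype.ext
      rw [map_mul]
      exact h.2.1
    · intro h0
      apply h.2.2.1
      have : B = 0 := congrArg Subtype.val h0
      rw [this, map_zero]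
    · intro e he heB
      rcases h.2.2.2 (ext i e.1) ((ext_mem_center_iff i).2 e.2)
        (by rw [← map_mul]; exact congrArg (fun z => ext i z.1) he)
        (by rw [← map_mul]; exact congrArg (fun z => ext i z.1) heB) with h1 | h1
      · left
        apply Subtype.ext
        apply ext_inj i
        rw [h1]
        exact (map_zero (ext i)).symm
      · right
        exact Subtype.ext (ext_inj i h1)
  · intro h
    have h1 := prim_extZ i ((P179C.isBlock_iff_prim ⟨B, h.1⟩).1 h)
    exact (P179C.isBlock_iff_prim _).2 h1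

/-- the central character of an extended block -/
theorem centralChar_ext {B : MonoidAlgebra F G} (hB : P179C.IsBlock B) {z : MonoidAlgebra F G}
    (hz : z ∈ Subalgebra.center F (MonoidAlgebra F G)) :
    P179C.centralChar (ext i B) (ext i z) = i (P179C.centralChar B z) := by
  have hB' := (isBlock_ext i B).2 hB
  obtain ⟨l, hl⟩ := P179C.blockHomStmt (ext i B) hB'
  obtain ⟨l0, hl0⟩ := P179C.blockHomStmt B hB
  obtain ⟨l1, hl1⟩ := exists_descent i l
  have h1 : l0 = l1 := by
    refine P179C.eq_of_prim ((P179C.isBlock_iff_prim ⟨B, hB.1⟩).1 hB) l0 l1 ?_ ?_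
    · rw [hl0]
      exact P179C.centralChar_self B hB
    · apply i.injective
      rw [hl1, hl, map_one]
      exact P179C.centralChar_self _ hB'
  have h2 := hl (extZ i ⟨z, hz⟩)
  rw [extZ_val] at h2
  rw [← h2, ← hl1, ← h1, hl0]

/-- **Every block of `kG` is defined over `F`.** -/
theorem exists_block {B : MonoidAlgebra k G} (hB : P179C.IsBlock B) :
    ∃ B0 : MonoidAlgebra F G, P179C.IsBlock B0 ∧ ext i B0 = B := by
  classical
  obtain ⟨l, hl⟩ := P179C.blockHomStmt B hB
  obtain ⟨l0, hl0⟩ := exists_descent i l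
  obtain ⟨B0, hB0, h⟩ := P179C.homBlockStmt l0
  refine ⟨B0, hB0, ?_⟩
  have h1 : P179C.centralChar B (ext i B0) = 1 := by
    have h2 := hl (extZ i ⟨B0, hB0.1⟩)
    rw [extZ_val] at h2
    rw [← h2, ← hl0, h]
    have h3 : P179C.centralChar B0 B0 = 1 := P179C.centralChar_self B0 hB0
    exact (congrArg i h3).trans (map_one i)
  have h2 := P179C.charBlockStmt B (ext i B0) hB ((isBlock_ext i B0).2 hB0)
  rw [h1] at h2
  by_contra hc
  rw [if_neg (fun h => hc h.symm)] at h2
  exact one_ne_zero h2

end Ext

end Vale.P179.H671
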