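import Vale.Agent.P179.H671.Univ2

/-!
# Change of the field (P179, universe lift), part 3: numbers of simple modules and of weights
-/

namespace Vale.P179.H671

open P179H524 Subgroup Module

universe u v

/-- the solutions of a linear system over a subfield -/
theorem finrank_descent {F : Type v} [Field F] {k : Type u} [Field k] (i : F →+* k) {X : Type*}
    [Finite X] (W : Submodule F (X → F)) (W' : Submodule k (X → k))
    (h1 : ∀ ψ ∈ W, (fun x => i (ψ x)) ∈ W')
    (h2 : ∀ ψ ∈ W', ∀ r : k →+ F, (∀ a b, r (i a * b) = a * r b) → (fun x => r (ψ x)) ∈ W) :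
    finrank k W' = finrank F W := by
  let _ := i.toAlgebra
  have hi : ∀ (a : F) (b : k), a • b = i a * b := fun a b => Algebra.smul_def a b
  let b := Module.finBasis F W
  let v : Fin (finrank F W) → W' := fun j => ⟨fun x => i ((b j).1 x), h1 _ (b j).2⟩
  have hv : ∀ j x, (v j).1 x = i ((b j).1 x) := fun _ _ => rfl
  have hli : LinearIndependent k v := by
    rw [Fintype.linearIndependent_iff]
    intro c hc j
    rw [← Module.forall_dual_apply_eq_zero_iff F (c j)]
    intro φ
    have h3 : ∑ j, φ (c j) • b j = 0 := by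
      apply Subtype.ext
      funext x
      have h4 : ∑ j, c j * i ((b j).1 x) = 0 := by
        have := congrArg (fun w : W' => w.1 x) hc
        simpa [hv, Finset.sum_apply] using this
      have h5 := congrArg φ h4
      rw [map_sum, map_zero] at h5
      have h6 : ∀ j, φ (c j * i ((b j).1 x)) = φ (c j) * (b j).1 x := by
        intro j
        rw [mul_comm (c j), ← hi, map_smul, smul_eq_mul, mul_comm]
      simp only [h6] at h5
      simpa [Finset.sum_apply] using h5
    exact Fintype.linearIndependent_iff.1 b.linearIndependent (fun j => φ (c j)) h3 j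
  have himg : ∀ w : W, (⟨fun x => i (w.1 x), h1 _ w.2⟩ : W') ∈ Submodule.span k (Set.range v) := by
    intro w
    have h3 : (⟨fun x => i (w.1 x), h1 _ w.2⟩ : W') = ∑ j, i (b.repr w j) • v j := by
      apply Subtype.ext
      funext x
      have h4 := congrArg (fun w : W => i (w.1 x)) (b.sum_repr w)
      simp only [Submodule.coe_sum, Finset.sum_apply, SetLike.val_smul, Pi.smul_apply, smul_eq_mul,
        map_sum, map_mul] at h4
      simp only [Submodule.coe_sum, Finset.sum_apply, SetLike.val_smul, Pi.smul_apply, smul_eq_mul,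
        hv]
      exact h4.symm
    rw [h3]
    exact Submodule.sum_mem _ fun j _ => Submodule.smul_mem _ _ (Submodule.subset_span ⟨j, rfl⟩)
  have hsp : ⊤ ≤ Submodule.span k (Set.range v) := by
    rintro ⟨ψ, hψ⟩ -
    let U : Submodule F k := Submodule.span F (Set.range ψ)
    have hU : FiniteDimensional F U := FiniteDimensional.span_of_finite F (Set.finite_range ψ)
    let c := Module.finBasis F U
    have hex : ∀ l, ∃ r : k →ₗ[F] F, r.comp U.subtype = c.coord l := fun l =>
      LinearMap.exists_extend (c.coord l)
    choose r hr using hex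
    have hmem : ∀ x, ψ x ∈ U := fun x => Submodule.subset_span ⟨x, rfl⟩
    have hr' : ∀ l x, r l (ψ x) = c.repr ⟨ψ x, hmem x⟩ l := fun l x =>
      LinearMap.congr_fun (hr l) ⟨ψ x, hmem x⟩
    have h3 : ∀ l, (fun x => r l (ψ x)) ∈ W := fun l =>
      h2 ψ hψ (r l).toAddMonoidHom (fun a b => by
        change r l (i a * b) = a * r l b
        rw [← hi, map_smul, smul_eq_mul])
    have h4 : (⟨ψ, hψ⟩ : W') = ∑ l, (c l : k) •
        (⟨fun x => i ((⟨fun x => r l (ψ x), h3 l⟩ : W).1 x), h1 _ (h3 l)⟩ : W') := by
      apply Subtype.ext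
      funext x
      have h5 := congrArg Subtype.val (c.sum_repr ⟨ψ x, hmem x⟩)
      simp only [Submodule.coe_sum, SetLike.val_smul, hi] at h5
      simp only [Submodule.coe_sum, Finset.sum_apply, SetLike.val_smul, Pi.smul_apply, smul_eq_mul,
        hr']
      exact h5.symm.trans (Finset.sum_congr rfl fun l _ => mul_comm _ _)
    rw [h4]
    exact Submodule.sum_mem _ fun l _ => Submodule.smul_mem _ _ (himg _)
  rw [Module.finrank_eq_card_basis (Basis.mk hli hsp), Fintype.card_fin]

section Ext

variable {F : Type v} [Field F] {k : Type u} [Field k] (i : F →+* k) {G : Type} [Group G]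
  [IsAlgClosed F] [IsAlgClosed k]

/-- **The number of simple modules.** -/
theorem numSimpleIn_ext (p : ℕ) [Fact p.Prime] [CharP F p] [CharP k p] [Finite G]
    {B : MonoidAlgebra F G} (hB : B ∈ Subalgebra.center F (MonoidAlgebra F G))
    (hB2 : B * B = B) : P179C.numSimpleIn (ext i B) = P179C.numSimpleIn B := by
  have := Fintype.ofFinite G
  have hfin : Finite (P179C.C2.Om p G) := Quotient.finite _
  rw [← P179R.finrank_VB p B hB hB2, ← P179R.finrank_VB p (ext i B) ((ext_mem_center_iff i).2 hB)
    (by rw [← map_mul, hB2])]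
  refine finrank_descent i _ _ ?_ ?_
  · intro ψ hψ y hy
    have h := congrArg i (hψ y hy)
    rw [map_sum] at h
    simp only [map_mul] at h
    simp only [coeff_ext]
    exact h
  · intro ψ hψ r hr y hy
    have h := congrArg r (hψ y hy)
    rw [map_sum] at h
    simp only [coeff_ext, hr] at h
    exact h

omit [IsAlgClosed F] [IsAlgClosed k] in
theorem trunc_mem_center [Finite G] (H : Subgroup G) {z : MonoidAlgebra k G}
    (hz : z ∈ Subalgebra.center k (MonoidAlgebra k G)) :
    P179C.trunc H z ∈ Subalgebra.center k (MonoidAlgebra k H) := by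
  rw [P179C.mem_center_iff] at hz ⊢
  intro g x
  simp only [P179C.coeff_trunc]
  exact hz g x

/-- **Brauer induction.** -/
theorem inducesTo_ext [Finite G] {H : Subgroup G} {b : MonoidAlgebra F H} {B : MonoidAlgebra F G}
    (hb : P179C.IsBlock b) (hB : P179C.IsBlock B) :
    P179C.InducesTo (ext i b) (ext i B) ↔ P179C.InducesTo b B := by
  constructor
  · intro h z hz
    have h1 := h (ext i z) ((ext_mem_center_iff i).2 hz)
    rw [← ext_trunc, centralChar_ext i hb (trunc_mem_center H hz), centralChar_ext i hB hz] at h1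
    exact i.injective h1
  · intro h z hz
    obtain ⟨l, hl⟩ := P179C.blockHomStmt (ext i b) ((isBlock_ext i b).2 hb)
    obtain ⟨l', hl'⟩ := P179C.blockHomStmt (ext i B) ((isBlock_ext i B).2 hB)
    have := Fintype.ofFinite (ConjClasses G)
    let w : ConjClasses G → MonoidAlgebra F G := fun C => P179C.classSum F C.out
    have hw : ∀ C, w C ∈ Subalgebra.center F (MonoidAlgebra F G) := fun C =>
      P179C.classSum_mem_center C.out
    have hz1 : z = ∑ C, z.coeff C.out • ext i (w C) := by
      have h1 := P179C.eq_sum_classSum z hz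
      simp only [w, ext_classSum]
      exact h1
    have hz2 : P179C.trunc H z = ∑ C, z.coeff C.out • P179C.trunc H (ext i (w C)) := by
      refine eq_of_coeff fun x => ?_
      rw [P179C.coeff_trunc, MonoidAlgebra.coeff_sum, Finsupp.finsetSum_apply]
      conv_lhs => rw [hz1, MonoidAlgebra.coeff_sum, Finsupp.finsetSum_apply]
      refine Finset.sum_congr rfl fun C _ => ?_
      rw [MonoidAlgebra.coeff_smul, MonoidAlgebra.coeff_smul, Finsupp.smul_apply,
        Finsupp.smul_apply, P179C.coeff_trunc]
    have e1 : (⟨z, hz⟩ : Subalgebra.center k (MonoidAlgebra k G)) =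
        ∑ C, z.coeff C.out • ⟨ext i (w C), (ext_mem_center_iff i).2 (hw C)⟩ := by
      apply Subtype.ext
      rw [AddSubmonoidClass.coe_finsetSum]
      exact hz1
    have e2 : (⟨P179C.trunc H z, trunc_mem_center H hz⟩ :
        Subalgebra.center k (MonoidAlgebra k H)) =
        ∑ C, z.coeff C.out • ⟨P179C.trunc H (ext i (w C)),
          trunc_mem_center H ((ext_mem_center_iff i).2 (hw C))⟩ := by
      apply Subtype.ext
      rw [AddSubmonoidClass.coe_finsetSum]
      exact hz2
    have h1 := hl ⟨P179C.trunc H z, trunc_mem_center H hz⟩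
    have h2 := hl' ⟨z, hz⟩
    change _ = P179C.centralChar (ext i b) (P179C.trunc H z) at h1
    change _ = P179C.centralChar (ext i B) z at h2
    rw [← h1, ← h2, e1, e2, map_sum, map_sum]
    refine Finset.sum_congr rfl fun C _ => ?_
    rw [map_smul, map_smul]
    congr 1
    rw [hl, hl']
    change P179C.centralChar (ext i b) (P179C.trunc H (ext i (w C))) =
      P179C.centralChar (ext i B) (ext i (w C))
    rw [← ext_trunc, centralChar_ext i hb (trunc_mem_center H (hw C)),
      centralChar_ext i hB (hw C), h (w C) (hw C)]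

/-! ## weights -/

omit [IsAlgClosed F] [IsAlgClosed k] in
theorem redC_comp (red : integralClosure ℤ ℂ →+* F) (x : ℂ) :
    P179C.redC (i.comp red) x = i (P179C.redC red x) := by
  unfold P179C.redC
  split_ifs
  · rfl
  · exact (map_zero i).symm

theorem charInBlock_ext {H : Type} [Group H] [Finite H] (red : integralClosure ℤ ℂ →+* F)
    (χ : H → ℂ) {b : MonoidAlgebra F H} (hb : P179C.IsBlock b) :
    P179C.CharInBlock (i.comp red) χ (ext i b) ↔ P179C.CharInBlock red χ b := by
  unfold P179C.CharInBlock
  refine forall_congr' fun h => ?_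
  rw [redC_comp, ← ext_classSum i, centralChar_ext i hb (P179C.classSum_mem_center h),
    i.injective.eq_iff]

theorem weightInBlock_ext {p : ℕ} [Finite G] (red : integralClosure ℤ ℂ →+* F)
    (w : Weight p G) {B : MonoidAlgebra F G} (hB : P179C.IsBlock B) :
    P179C.WeightInBlock (i.comp red) w (ext i B) ↔ P179C.WeightInBlock red w B := by
  unfold P179C.WeightInBlock
  constructor
  · rintro ⟨b, hb, hc, hi⟩
    obtain ⟨b0, hb0, rfl⟩ := exists_block i hb
    exact ⟨b0, hb0, (charInBlock_ext i red _ hb0).1 hc, (inducesTo_ext i hb0 hB).1 hi⟩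
  · rintro ⟨b, hb, hc, hi⟩
    exact ⟨ext i b, (isBlock_ext i b).2 hb, (charInBlock_ext i red _ hb).2 hc,
      (inducesTo_ext i hb hB).2 hi⟩

/-- **The number of weights.** -/
theorem numWeightsIn_ext (p : ℕ) [Finite G] (red : integralClosure ℤ ℂ →+* F)
    {B : MonoidAlgebra F G} (hB : P179C.IsBlock B) :
    P179C.numWeightsIn p (i.comp red) (ext i B) = P179C.numWeightsIn p red B := by
  have h : (fun w : Weight p G => P179C.WeightInBlock (i.comp red) w (ext i B)) =
      fun w => P179C.WeightInBlock red w B :=
    funext fun w => propext (weightInBlock_ext i red w hB)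
  exact P179B.quot_aux Weight.Conj _ _ h

end Ext

end Vale.P179.H671
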