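import Vale.Agent.P179.H671.Univ3

/-!
# Change of the field (P179, universe lift), part 4: descent to a field in `Type`
-/

namespace Vale.P179.H671

open P179H524 Subgroup Module

universe u

/-- the algebraic closure of the prime field -/
theorem exists_subfield (p : ℕ) [Fact p.Prime] (k : Type u) [Field k] [IsAlgClosed k]
    [CharP k p] :
    ∃ (F : Type) (_ : Field F) (_ : IsAlgClosed F) (_ : CharP F p) (i : F →+* k),
      ∀ red : integralClosure ℤ ℂ →+* k, ∃ red0 : integralClosure ℤ ℂ →+* F,
        red = i.comp red0 := by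
  let _ : Algebra (ZMod p) k := ZMod.algebra k p
  let i : AlgebraicClosure (ZMod p) →+* k :=
    (IsAlgClosed.lift (R := ZMod p) (S := AlgebraicClosure (ZMod p)) (M := k) :
      AlgebraicClosure (ZMod p) →ₐ[ZMod p] k)
  have hchar : CharP (AlgebraicClosure (ZMod p)) p := inferInstance
  refine ⟨AlgebraicClosure (ZMod p), inferInstance, inferInstance, hchar, i, fun red => ?_⟩
  have hex : ∀ x, ∃ c, i c = red x := by
    intro x
    let _ := i.toAlgebra
    have h0 : IsIntegral ℤ x := by
      have h := x.2
      obtain ⟨P, hP, hx⟩ := h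
      refine ⟨P, hP, ?_⟩
      apply Subtype.ext
      have h1 := Polynomial.hom_eval₂ P (algebraMap ℤ (integralClosure ℤ ℂ))
        (algebraMap (integralClosure ℤ ℂ) ℂ) x
      have h2 : (algebraMap (integralClosure ℤ ℂ) ℂ).comp (algebraMap ℤ (integralClosure ℤ ℂ)) =
          algebraMap ℤ ℂ := RingHom.ext_int _ _
      rw [h2] at h1
      exact h1.trans hx
    have h1 : IsIntegral ℤ (red x) := h0.map red.toIntAlgHom
    have h2 : IsIntegral (AlgebraicClosure (ZMod p)) (red x) := by
      obtain ⟨P, hP, hx⟩ := h1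
      refine ⟨P.map (algebraMap ℤ (AlgebraicClosure (ZMod p))), hP.map _, ?_⟩
      rw [Polynomial.eval₂_map]
      have h3 : (algebraMap (AlgebraicClosure (ZMod p)) k).comp
          (algebraMap ℤ (AlgebraicClosure (ZMod p))) = algebraMap ℤ k := RingHom.ext_int _ _
      rw [h3]
      exact hx
    have h3 := IsAlgClosed.degree_eq_one_of_irreducible _ (minpoly.irreducible h2)
    obtain ⟨c, hc⟩ := minpoly.mem_range_of_degree_eq_one _ _ h3
    exact ⟨c, hc⟩
  choose c hc using hex
  refine ⟨
    { toFun := c
      map_one' := ?_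
      map_mul' := ?_
      map_zero' := ?_
      map_add' := ?_ }, ?_⟩
  · apply i.injective
    rw [hc, map_one, map_one]
  · intro x y
    apply i.injective
    rw [hc, map_mul, map_mul, hc, hc]
  · apply i.injective
    rw [hc, map_zero, map_zero]
  · intro x y
    apply i.injective
    rw [hc, map_add, map_add, hc, hc]
  · ext x
    exact (hc x).symm

end Vale.P179.H671

/-! ## the same in the letters `P179B` -/

namespace Vale.P179.H671.UB

open P179H524 Subgroup P179B

universe u v

variable {F : Type v} [Field F] {k : Type u} [Field k] (i : F →+* k) {G : Type} [Group G]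
  [IsAlgClosed F] [IsAlgClosed k] [Finite G]

theorem isBlock_ext (B : MonoidAlgebra F G) : IsBlock (ext i B) ↔ IsBlock B :=
  Vale.P179.H671.isBlock_ext i B

theorem exists_block {B : MonoidAlgebra k G} (hB : IsBlock B) :
    ∃ B0 : MonoidAlgebra F G, IsBlock B0 ∧ ext i B0 = B :=
  Vale.P179.H671.exists_block i hB

theorem numSimpleIn_ext (p : ℕ) [Fact p.Prime] [CharP F p] [CharP k p]
    {B : MonoidAlgebra F G} (hB : IsBlock B) : numSimpleIn (ext i B) = numSimpleIn B := by
  rw [numSimpleIn_eq, numSimpleIn_eq]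
  exact Vale.P179.H671.numSimpleIn_ext i p hB.1 hB.2.1

theorem numWeightsIn_ext (p : ℕ) (red : integralClosure ℤ ℂ →+* F)
    {B : MonoidAlgebra F G} (hB : IsBlock B) :
    numWeightsIn p (i.comp red) (ext i B) = numWeightsIn p red B := by
  rw [numWeightsIn_eq, numWeightsIn_eq]
  exact Vale.P179.H671.numWeightsIn_ext i p red hB

theorem inducesTo_ext {H : Subgroup G} {b : MonoidAlgebra F H} {B : MonoidAlgebra F G}
    (hb : IsBlock b) (hB : IsBlock B) : InducesTo (ext i b) (ext i B) ↔ InducesTo b B := by
  rw [inducesTo_iff, inducesTo_iff]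
  exact Vale.P179.H671.inducesTo_ext i hb hB

omit [IsAlgClosed F] [IsAlgClosed k] in
theorem isDefectGroup_ext (B : MonoidAlgebra F G) (D : Subgroup G) :
    IsDefectGroup (ext i B) D ↔ IsDefectGroup B D :=
  Vale.P179.H671.isDefectGroup_ext i B D

end Vale.P179.H671.UB

namespace Vale.P179.H671

open P179H524 Subgroup P179B

universe u

/-- **The universe lift**: a block `B` of `kG`, `k : Type u`, with a defect group `D` and a root
`b` comes from a block over a field in `Type`, with the same invariants. -/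
theorem descend (p : ℕ) [Fact p.Prime] (k : Type u) [Field k] [IsAlgClosed k] [CharP k p]
    (red : integralClosure ℤ ℂ →+* k) {G : Type} [Group G] [Finite G] {B : MonoidAlgebra k G}
    (hB : IsBlock B) :
    ∃ (F : Type) (_ : Field F) (_ : IsAlgClosed F) (_ : CharP F p)
      (red0 : integralClosure ℤ ℂ →+* F) (B0 : MonoidAlgebra F G), IsBlock B0 ∧
      numSimpleIn B0 = numSimpleIn B ∧ numWeightsIn p red0 B0 = numWeightsIn p red B ∧
      ∀ D : Subgroup G, (IsDefectGroup B0 D ↔ IsDefectGroup B D) ∧
        ∀ b : MonoidAlgebra k (centralizer (D : Set G)), IsBlock b → InducesTo b B →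
          ∃ b0 : MonoidAlgebra F (centralizer (D : Set G)), IsBlock b0 ∧ InducesTo b0 B0 ∧
            inertialGroup D b0 = inertialGroup D b := by
  obtain ⟨F, _, _, _, i, hred⟩ := exists_subfield p k
  obtain ⟨red0, rfl⟩ := hred red
  obtain ⟨B0, hB0, rfl⟩ := UB.exists_block i hB
  refine ⟨F, inferInstance, inferInstance, inferInstance, red0, B0, hB0,
    (UB.numSimpleIn_ext i p hB0).symm, (UB.numWeightsIn_ext i p red0 hB0).symm, fun D =>
      ⟨(UB.isDefectGroup_ext i B0 D).symm, fun b hb hbB => ?_⟩⟩
  obtain ⟨b0, hb0, rfl⟩ := UB.exists_block i hb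
  exact ⟨b0, hb0, (UB.inducesTo_ext i hb0 hB0).1 hbB, (inertialGroup_ext i D b0).symm⟩

/-- a lower bound `e ≤ l(B)` for the fields in `Type` holds for the fields in `Type u` -/
theorem low_univ (p : ℕ) [Fact p.Prime]
    (P : ∀ (G : Type) [Group G], Subgroup G → Subgroup G → Prop)
    (hLow : ∀ (k : Type) [Field k] [IsAlgClosed k] [CharP k p] (G : Type) [Group G] [Finite G]
      (B : MonoidAlgebra k G), IsBlock B → ∀ D : Subgroup G, IsDefectGroup B D →
      ∀ b : MonoidAlgebra k (centralizer (D : Set G)), IsBlock b → InducesTo b B →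
      P G D (inertialGroup D b) → inertialIndex D b ≤ numSimpleIn B)
    (k : Type u) [Field k] [IsAlgClosed k] [CharP k p] (G : Type) [Group G] [Finite G]
    (B : MonoidAlgebra k G) (hB : IsBlock B) (D : Subgroup G) (hD : IsDefectGroup B D)
    (b : MonoidAlgebra k (centralizer (D : Set G))) (hb : IsBlock b) (hbB : InducesTo b B)
    (hP : P G D (inertialGroup D b)) : inertialIndex D b ≤ numSimpleIn B := by
  obtain ⟨red⟩ := P179C.exists_red p k
  obtain ⟨F, _, _, _, red0, B0, hB0, h1, -, h2⟩ := descend p k red hB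
  obtain ⟨b0, hb0, hbB0, h3⟩ := (h2 D).2 b hb hbB
  have h4 : inertialIndex D b0 = inertialIndex D b := by
    unfold inertialIndex
    rw [h3]
  rw [← h1, ← h4]
  exact hLow F G B0 hB0 D ((h2 D).1.2 hD) b0 hb0 hbB0 (by rw [h3]; exact hP)

end Vale.P179.H671
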